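import Vale.Agent.P344.Canc

/-!
# P344: additions with disjoint and overlapping operands, and cancellation

For every linear circuit (unrestricted coefficients) that computes `F_n`:
* `n log₂ n ≤ (disjoint additions) + log₂ n · (overlapping additions)`;
* the total logarithmic cancellation of its additions is at least `(n / 2) log₂ n`.
-/

namespace Vale.Agent.Results.P344.AdditionTradeoff

open Vale.Agent.P344 Finset

theorem adds_le_length (n : ℕ) (P : List Gate) :
    disjointAdds n P + overlappingAdds n P ≤ P.length := by
  classical
  unfold disjointAdds overlappingAdds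
  rw [← card_union_of_disjoint]
  · refine (card_le_card (union_subset (filter_subset _ _) (filter_subset _ _))).trans ?_
    rw [card_range]
  · rw [disjoint_filter]
    rintro k _ ⟨u, w, h1, h2⟩ ⟨u', w', h3, j, h4, h5⟩
    rw [h1, Option.some.injEq, Prod.mk.injEq] at h3
    obtain ⟨rfl, rfl⟩ := h3
    rcases h2 j with h6 | h6
    · exact h4 h6
    · exact h5 h6

/-- Every linear circuit `P` over `ℂ` (unrestricted coefficients) that computes the unnormalized
discrete Fourier transform `F_n`, `n ≥ 1`, satisfies
(a) `disjointAdds + overlappingAdds ≤` number of gates,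
(b) `n log₂ n ≤ disjointAdds + log₂ n · overlappingAdds`,
(c) `(n/2) log₂ n ≤` the sum over all additions and subtractions of
`log₂ ((‖u‖ + ‖w‖) / ‖u + w‖)`. -/
theorem result (n : ℕ) (hn : 1 ≤ n) (P : List Gate) (hP : Computes P (dft n)) :
    disjointAdds n P + overlappingAdds n P ≤ P.length ∧
    n * Real.logb 2 n ≤ disjointAdds n P + Real.logb 2 n * overlappingAdds n P ∧
    n / 2 * Real.logb 2 n ≤ cancellation n P :=
  ⟨adds_le_length n P, (dft_isHadamard hn).adds hn hP, (dft_isHadamard hn).canc hn hP⟩

end Vale.Agent.Results.P344.AdditionTradeoff
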